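import Vale.Agent.Lib.P050.Kernel
import Vale.Agent.Lib.P050.LogConcave

/-!
# P050: the Sidorenko inequality for every bipartite graph and every kernel of rank at most two,
and more generally every kernel that is totally positive of order two for suitable orderings
-/

namespace Vale.Agent.Results.P050.RankTwo

open MeasureTheory

/-- `W` is a kernel: a bounded symmetric measurable function `[0,1]² → [0,∞)`. -/
structure IsKernel (W : unitInterval → unitInterval → ℝ) : Prop where
  measurable : Measurable (Function.uncurry W)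
  symm : ∀ x y, W x y = W y x
  nonneg : ∀ x y, 0 ≤ W x y
  bounded : ∃ M : ℝ, ∀ x y, W x y ≤ M

/-- the value `W (x a) (x b)` at the unordered pair `{a, b}`. -/
def edgeValue {V : Type*} (W : unitInterval → unitInterval → ℝ) (hW : IsKernel W)
    (x : V → unitInterval) (e : Sym2 V) : ℝ :=
  Sym2.lift ⟨fun a b => W (x a) (x b), fun a b => hW.symm (x a) (x b)⟩ e

/-- the homomorphism density `t(H, W)`. -/
noncomputable def density {V : Type*} [Fintype V] [DecidableEq V] (H : SimpleGraph V)
    [DecidableRel H.Adj] (W : unitInterval → unitInterval → ℝ) (hW : IsKernel W) : ℝ :=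
  ∫ x : V → unitInterval, ∏ e ∈ H.edgeFinset, edgeValue W hW x e

/-- `W` is a step function with two steps. -/
def TwoStep (W : unitInterval → unitInterval → ℝ) : Prop :=
  ∃ (s : unitInterval → Fin 2) (c : Fin 2 → Fin 2 → ℝ), ∀ x y, W x y = c (s x) (s y)

/-- `W` has rank at most two. -/
def RankTwo (W : unitInterval → unitInterval → ℝ) : Prop :=
  ∃ f₁ f₂ g₁ g₂ : unitInterval → ℝ, ∀ x y, W x y = f₁ x * g₁ y + f₂ x * g₂ y

/-- `W (x, y) = φ (f x - g y)` with `φ ≥ 0` log-concave. -/
def LogConcaveConvolution (W : unitInterval → unitInterval → ℝ) : Prop :=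
  ∃ (φ : ℝ → ℝ) (f g : unitInterval → ℝ), (∀ a, 0 ≤ φ a) ∧
    (∀ a b l : ℝ, 0 ≤ l → l ≤ 1 → φ a ^ (1 - l) * φ b ^ l ≤ φ ((1 - l) * a + l * b)) ∧
    ∀ x y, W x y = φ (f x - g y)

/-- `W` is totally positive of order two when the rows are ordered by `u` and the columns by `v`. -/
def TotallyPositive (W : unitInterval → unitInterval → ℝ) : Prop :=
  ∃ u v : unitInterval → ℝ, ∀ x x' y y', u x ≤ u x' → v y ≤ v y' →
    W x y' * W x' y ≤ W x y * W x' y'

/-- **Sidorenko inequality** for every bipartite graph `H` against these kernels. -/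
theorem result {V : Type*} [Fintype V] [DecidableEq V] (H : SimpleGraph V) [DecidableRel H.Adj]
    (hH : H.IsBipartite) (W : unitInterval → unitInterval → ℝ) (hW : IsKernel W)
    (h : TwoStep W ∨ RankTwo W ∨ LogConcaveConvolution W ∨ TotallyPositive W) :
    (∫ x, ∫ y, W x y) ^ H.edgeFinset.card ≤ density H W hW := by
  obtain ⟨M, hM⟩ := hW.bounded
  have main : (∃ u v : unitInterval → ℝ, P050.TP2 u v W) →
      (∫ x, ∫ y, W x y) ^ H.edgeFinset.card ≤ density H W hW := by
    rintro ⟨u, v, huv⟩
    exact P050.graph_sidorenko H hH W hW.symm hW.measurable hW.nonneg M hM u v huv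
  have rank : RankTwo W → (∫ x, ∫ y, W x y) ^ H.edgeFinset.card ≤ density H W hW := by
    rintro hr
    exact main (P050.tp2_of_rankTwo W hW.nonneg hr)
  rcases h with h | h | h | h
  · obtain ⟨s, c, hc⟩ := h
    refine rank ⟨fun x => if s x = 0 then 1 else 0, fun x => if s x = 0 then 0 else 1,
      fun y => c 0 (s y), fun y => c 1 (s y), ?_⟩
    intro x y
    rw [hc]
    by_cases hx : s x = 0
    · simp [hx]
    · have hx1 : s x = 1 := by omega
      simp [hx1]
  · exact rank h
  · obtain ⟨φ, f, g, h0, hφ, hfg⟩ := h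
    refine main ⟨f, g, ?_⟩
    have := P050.tp2_of_logConcave φ h0 hφ f g
    intro x x' y y' hx hy
    rw [hfg, hfg, hfg, hfg]
    exact this x x' y y' hx hy
  · obtain ⟨u, v, huv⟩ := h
    exact main ⟨u, v, huv⟩

end Vale.Agent.Results.P050.RankTwo
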