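import Vale.Agent.Lib.P050.Hosts

/-!
# P050: Sidorenko's inequality for every bipartite graph `H` and totally positive hosts

Q1 asks for `t(H, G) ≥ p(G) ^ |E(H)|` for every bipartite `H` and every host `G`. Here nothing is
assumed on `H`; the hosts are: all bipartite permutation graphs `G`, and all kernels that have rank
at most two, or are log-concave in `a(x) + b(y)`, or are totally positive of order two for some
linear orders of the rows and of the columns.
-/

namespace Vale.Agent.Results.P050.TotallyPositiveHosts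

open MeasureTheory

universe u v

/-- `t(H, G) = hom(H, G) / |V(G)| ^ |V(H)|`. -/
noncomputable def homDensity {V X : Type*} (H : SimpleGraph V) (G : SimpleGraph X) : ℝ :=
  (Nat.card (H →g G) : ℝ) / (Nat.card X : ℝ) ^ Nat.card V

/-- `p(G) = 2 |E(G)| / |V(G)| ^ 2`. -/
noncomputable def edgeDensity {X : Type*} (G : SimpleGraph X) : ℝ :=
  2 * (Nat.card G.edgeSet : ℝ) / (Nat.card X : ℝ) ^ 2

/-- `G` is a permutation graph: there are two numberings `σ`, `τ` of the vertices such that two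
vertices are adjacent exactly when `σ` and `τ` order them oppositely. -/
def IsPermutationGraph {X : Type*} (G : SimpleGraph X) : Prop :=
  ∃ σ τ : X ≃ Fin (Nat.card X), ∀ x y,
    G.Adj x y ↔ (σ x < σ y ∧ τ y < τ x) ∨ (σ y < σ x ∧ τ x < τ y)

/-- `t(H, W) = ∫ ∏_{uv ∈ E(H)} W (x_u, x_v) dx` for a symmetric `W` on the probability space
`(Ω, μ)`; the integral is over `Ω ^ V(H)`, and `(e.out.1, e.out.2)` are the two ends of the edge
`e`, in an order that is immaterial as `W` is symmetric. -/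
noncomputable def kernelDensity {V Ω : Type*} [Fintype V] [DecidableEq V] [MeasurableSpace Ω]
    (μ : Measure Ω) (H : SimpleGraph V) [DecidableRel H.Adj] (W : Ω → Ω → ℝ) : ℝ :=
  ∫ x : V → Ω, ∏ e ∈ H.edgeFinset, W (x (Quot.out e).1) (x (Quot.out e).2)
    ∂(Measure.pi fun _ => μ)

/-- bounded, measurable, with values in `[0, ∞)`. -/
structure IsBoundedKernel {Ω Ω' : Type*} [MeasurableSpace Ω] [MeasurableSpace Ω']
    (W : Ω → Ω' → ℝ) : Prop where
  measurable : Measurable (Function.uncurry W)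
  nonneg : ∀ x y, 0 ≤ W x y
  bounded : ∃ M : ℝ, ∀ x y, W x y ≤ M

/-- `W (x, y) = f₀ (x) g₀ (y) + f₁ (x) g₁ (y)`. -/
def HasRankAtMostTwo {Ω Ω' : Type*} (W : Ω → Ω' → ℝ) : Prop :=
  ∃ (f : Fin 2 → Ω → ℝ) (g : Fin 2 → Ω' → ℝ), ∀ x y, W x y = ∑ i, f i x * g i y

/-- `W (x, y) = φ (a (x) + b (y))` with `φ ≥ 0` log-concave: the set where `φ ≠ 0` is convex and
`log φ` is concave on it. -/
def IsLogConcave {Ω Ω' : Type*} (W : Ω → Ω' → ℝ) : Prop :=
  ∃ (φ : ℝ → ℝ) (a : Ω → ℝ) (b : Ω' → ℝ), (∀ s, 0 ≤ φ s) ∧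
    ConcaveOn ℝ (Function.support φ) (fun s => Real.log (φ s)) ∧ ∀ x y, W x y = φ (a x + b y)

/-- the rows and the columns of `W` can be linearly ordered so that all `2 × 2` minors are
nonnegative. -/
def IsTotallyPositive {Ω Ω' : Type*} (W : Ω → Ω' → ℝ) : Prop :=
  ∃ (_ : LinearOrder Ω) (_ : LinearOrder Ω'), ∀ (x x' : Ω) (y y' : Ω'), x ≤ x' → y ≤ y' →
    W x y' * W x' y ≤ W x y * W x' y'

theorem sample_of {Ω Ω' : Type*} (W : Ω → Ω' → ℝ) (h0 : ∀ x y, 0 ≤ W x y)
    (hW : HasRankAtMostTwo W ∨ IsLogConcave W ∨ IsTotallyPositive W) (N : ℕ) (x : Fin N → Ω)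
    (y : Fin N → Ω') : ∃ u v : Fin N → ℝ, P050.TP2 u v fun i j => W (x i) (y j) := by
  rcases hW with ⟨f, g, h⟩ | ⟨φ, a, b, hφ0, hφ, h⟩ | ⟨o, o', h⟩
  · obtain ⟨u, v, huv⟩ := P050.tp2_of_rankTwo W h0
      ⟨f 0, f 1, g 0, g 1, fun x y => by rw [h, Fin.sum_univ_two]⟩
    exact P050.Hosts_sample W u v huv N x y
  · have h1 := P050.tp2_of_logConcave φ hφ0 (P050.Hosts_logConcave φ hφ0 hφ) a (fun y => - b y)
    refine P050.Hosts_sample W a (fun y => - b y) ?_ N x y
    intro x x' y y' hx hy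
    have h2 := h1 x x' y y' hx hy
    simp only [sub_neg_eq_add] at h2
    simpa only [h] using h2
  · obtain ⟨u, hu⟩ := P050.Hosts_keys x
    obtain ⟨v, hv⟩ := P050.Hosts_keys y
    exact ⟨u, v, fun i i' j j' hi hj => h _ _ _ _ (hu _ _ hi) (hv _ _ hj)⟩

/-- **Sidorenko's inequality** for every bipartite graph `H`, against
(1) every bipartite permutation graph `G`: `p(G) ^ |E(H)| ≤ t(H, G)`;
(2) every symmetric kernel `W`, on any probability space, in one of the three classes:
`(∫ W) ^ |E(H)| ≤ t(H, W)`;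
(3) every kernel `W : Ω × Ω' → [0, ∞)`, symmetric or not, in one of the three classes, where `H`
has parts `A`, `B` and edge set `E ⊆ A × B` (Sidorenko's original analytic form). -/
theorem result :
    (∀ {V : Type u} {X : Type v} [Finite V] [Finite X] [Nonempty X] (H : SimpleGraph V)
      (G : SimpleGraph X), H.IsBipartite → G.IsBipartite → IsPermutationGraph G →
      edgeDensity G ^ Nat.card H.edgeSet ≤ homDensity H G) ∧
    (∀ {V : Type u} {Ω : Type v} [Fintype V] [DecidableEq V] [MeasurableSpace Ω]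
      (μ : Measure Ω) [IsProbabilityMeasure μ] (H : SimpleGraph V) [DecidableRel H.Adj]
      (W : Ω → Ω → ℝ), H.IsBipartite → IsBoundedKernel W → (∀ x y, W x y = W y x) →
      (HasRankAtMostTwo W ∨ IsLogConcave W ∨ IsTotallyPositive W) →
      (∫ x, ∫ y, W x y ∂μ ∂μ) ^ H.edgeFinset.card ≤ kernelDensity μ H W) ∧
    (∀ {A B : Type u} {Ω Ω' : Type v} [Fintype A] [Fintype B] [MeasurableSpace Ω]
      [MeasurableSpace Ω'] (μ : Measure Ω) [IsProbabilityMeasure μ] (ν : Measure Ω')
      [IsProbabilityMeasure ν] (E : Finset (A × B)) (W : Ω → Ω' → ℝ), IsBoundedKernel W →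
      (HasRankAtMostTwo W ∨ IsLogConcave W ∨ IsTotallyPositive W) →
      (∫ x, ∫ y, W x y ∂ν ∂μ) ^ E.card ≤
        ∫ x : A → Ω, ∫ y : B → Ω', ∏ e ∈ E, W (x e.1) (y e.2) ∂(Measure.pi fun _ => ν)
          ∂(Measure.pi fun _ => μ)) := by
  refine ⟨?_, ?_, ?_⟩
  · intro V X _ _ _ H G hH hG hP
    classical
    have : Fintype V := Fintype.ofFinite V
    obtain ⟨σ, τ, hst⟩ := hP
    obtain ⟨u, v, huv⟩ := P050.Hosts_permutation G hG (fun x => ((σ x : ℕ) : ℝ))
      (fun x => ((τ x : ℕ) : ℝ)) (by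
        intro x y hxy
        have h1 : ((σ x : ℕ) : ℝ) = ((σ y : ℕ) : ℝ) := hxy
        exact σ.injective (Fin.ext (by exact_mod_cast h1))) (by
        intro x y
        rw [hst x y]
        simp only [Nat.cast_lt, Fin.val_fin_lt]) (Nat.card X : ℝ) (by
        intro x
        rw [abs_of_nonneg (by positivity)]
        exact_mod_cast (σ x).2)
    have h := P050.Hosts_graph H hH G u v huv
    unfold edgeDensity homDensity
    rw [Nat.card_eq_fintype_card (α := H.edgeSet), ← SimpleGraph.edgeFinset_card,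
      Nat.card_eq_fintype_card (α := V)]
    exact h
  · intro V Ω _ _ _ μ _ H _ W hH hW hs hc
    obtain ⟨M, hM⟩ := hW.bounded
    obtain ⟨c, _, E, hE, ht⟩ := P050.Hosts_density μ H W hs hW.measurable M hW.nonneg hM hH
    unfold kernelDensity
    rw [ht, ← hE]
    exact P050.Hosts_kernel μ μ W hW.measurable hW.nonneg M hM (sample_of W hW.nonneg hc) E
  · intro A B Ω Ω' _ _ _ _ μ _ ν _ E W hW hc
    classical
    obtain ⟨M, hM⟩ := hW.bounded
    exact P050.Hosts_kernel μ ν W hW.measurable hW.nonneg M hM (sample_of W hW.nonneg hc) E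

end Vale.Agent.Results.P050.TotallyPositiveHosts
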